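import Crest.Agent.R269.A.Levi

/-! # Row 269, block R: the function chi -/

set_option autoImplicit false
set_option linter.unusedSectionVars false
set_option linter.unusedVariables false

noncomputable section

namespace Crest.Agent.R269

open Set Metric Filter Topology MeasureTheory Matrix
open Crest.AlgGeometry.ProjEmb
open scoped InnerProductSpace ContDiff

variable {n : ℕ} {h : Cn n → ℂ} {w : Cn n}

/-- Iterated directional derivatives. -/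
def dk (h : Cn n → ℂ) (e : Cn n) (k : ℕ) (w : Cn n) : ℂ := iteratedFDeriv ℂ k h w fun _ => e

/-- The explicit plurisubharmonic function. -/
def chi (h : Cn n → ℂ) (e : Cn n) (k : ℕ) (σ : ℝ) (w : Cn n) : ℝ :=
  ∑ i ∈ Finset.range k, √(‖dk h e i w‖ ^ 2 + σ ^ 2)

/-- `AnalyticOnNhd.iteratedFDeriv` on the open set of points of analyticity, then evaluate (`ContinuousMultilinearMap.apply`). -/
theorem analyticAt_dk (hh : AnalyticAt ℂ h w) (e : Cn n) (k : ℕ) : AnalyticAt ℂ (dk h e k) w := by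
  exact (ContinuousMultilinearMap.apply ℂ (fun _ : Fin k => Cn n) ℂ fun _ => e).analyticAt _ |>.comp
    (AnalyticOnNhd.iteratedFDeriv (s := {w}) (fun _ hx => hx ▸ hh) k w rfl)

/-- If `h w ≠ 0` take `k = 0` and any `e ≠ 0`.  Otherwise `HasFPowerSeriesOnBall.hasSum_iteratedFDeriv` at a point `w + e` of the ball
with `h (w + e) ≠ 0`. -/
theorem exists_dir (hn : 1 ≤ n) (hh : AnalyticAt ℂ h w) (hne : ∃ᶠ x in 𝓝 w, h x ≠ 0) :
    ∃ e, e ≠ 0 ∧ ∃ k, dk h e k w ≠ 0 := by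
  by_cases h0 : h w = 0
  · obtain ⟨p, r, hp⟩ := hh
    obtain ⟨x, h1, h2⟩ := (hne.and_eventually (eball_mem_nhds w hp.r_pos)).exists
    refine ⟨x - w, fun h3 => h1 (sub_eq_zero.1 h3 ▸ h0), by_contra fun h3 => h1 ?_⟩
    have h4 := hp.hasSum_iteratedFDeriv (y := x - w) (by simpa [edist_dist, dist_eq_norm] using h2)
    simp only [not_exists, not_not, dk] at h3
    simpa [h3] using h4.tsum_eq.symm
  · exact ⟨EuclideanSpace.single ⟨0, hn⟩ 1, by simp, 0, h0⟩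

theorem chi_c2 {V : Type} [NormedAddCommGroup V] [NormedSpace ℂ V] {g : V → ℂ} {x : V} (hg : AnalyticAt ℂ g x) {σ : ℝ}
    (hσ : 0 < σ) : ContDiffAt ℝ 2 (fun x => √(‖g x‖ ^ 2 + σ ^ 2)) x :=
  (((hg.contDiffAt.restrict_scalars ℝ).norm_sq ℝ).add contDiffAt_const).sqrt (by positivity)

theorem chi_levi (z v : ℂ) {σ : ℝ} (hσ : 0 < σ) :
    ‖v‖ ^ 2 / √(‖z‖ ^ 2 + σ ^ 2) ≤ 4 * levi (fun z : ℂ => √(‖z‖ ^ 2 + σ ^ 2)) z v := by
  have x0 : 0 < ‖z‖ ^ 2 + σ ^ 2 := by positivity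
  have h1 : ∀ t : ℝ, 0 < t + σ ^ 2 → HasDerivAt (fun t => √(t + σ ^ 2)) (1 / (2 * √(t + σ ^ 2))) t :=
    fun t ht => ((hasDerivAt_id t).add_const _).sqrt ht.ne'
  have h2 : deriv (fun t => √(t + σ ^ 2)) =ᶠ[𝓝 (‖z‖ ^ 2)] fun t => 1 / (2 * √(t + σ ^ 2)) :=
    (continuousAt_const.eventually_lt (g := fun t => t + σ ^ 2) (by fun_prop) x0).mono fun t ht => (h1 t ht).deriv
  have s0 := Real.sqrt_pos.2 x0
  have h3 := ((hasDerivAt_const _ (1 : ℝ)).div ((h1 _ x0).const_mul 2) (by positivity)).deriv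
  have h4 : levi (fun z : ℂ => ‖z‖ ^ 2) z v = ‖v‖ ^ 2 := by
    have : fderiv ℝ (fderiv ℝ fun z : ℂ => ‖z‖ ^ 2) z = 2 • innerSL ℝ := by
      rw [fderiv_norm_sq]; exact ((innerSL ℝ (E := ℂ)).hasFDerivAt.const_smul 2).fderiv
    rw [levi, this]
    change (2 • ⟪v, v⟫_ℝ + 2 • ⟪Complex.I • v, Complex.I • v⟫_ℝ) / 4 = _
    rw [real_inner_self_eq_norm_sq, real_inner_self_eq_norm_sq, norm_smul, Complex.norm_I]
    ring
  have h5 : (fderiv ℝ (fun z : ℂ => ‖z‖ ^ 2) z v ^ 2 + fderiv ℝ (fun z : ℂ => ‖z‖ ^ 2) z (Complex.I • v) ^ 2) / 4 =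
      ‖z‖ ^ 2 * ‖v‖ ^ 2 := by
    rw [fderiv_norm_sq_apply]
    simp [Complex.sq_norm, Complex.normSq_apply]
    ring
  rw [levi_comp_real (h := fun t => √(t + σ ^ 2)) (f := fun z : ℂ => ‖z‖ ^ 2)
    ((contDiffAt_id.add contDiffAt_const).sqrt x0.ne') (contDiffAt_id.norm_sq ℝ), (h1 _ x0).deriv, h2.deriv_eq,
    h4, h5]
  erw [h3]
  have h6 := Real.sq_sqrt x0.le
  generalize √(‖z‖ ^ 2 + σ ^ 2) = q at *
  rw [show ‖z‖ ^ 2 = q ^ 2 - σ ^ 2 by linarith, ← sub_nonneg]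
  convert (show 0 ≤ σ ^ 2 * ‖v‖ ^ 2 / q ^ 3 by positivity) using 1
  field_simp
  ring

theorem contDiffAt_chi (hh : AnalyticAt ℂ h w) (e : Cn n) (k : ℕ) {σ : ℝ} (hσ : 0 < σ) :
    ContDiffAt ℝ 2 (chi h e k σ) w := by
  exact ContDiffAt.sum fun i _ => chi_c2 (analyticAt_dk hh e i) hσ

/-- For `g` analytic, `x = ‖g w‖² + σ²`, `g' = fderiv ℂ g w e`: `levi_comp_real` with `√(· + σ²)`, `levi ‖g‖² = ‖g'‖²` (`levi_comp_hol` on `ℂ`) and
`(D‖g‖² e)² + (D‖g‖² (I e))² = 4 ‖g‖² ‖g'‖²` give `4 levi √(‖g‖² + σ²) = ‖g'‖² (2x - ‖g‖²) / x^{3/2} ≥ ‖g'‖² / √x`.  `fderiv ℂ (dk h e i) w e = dk h e (i+1) w`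
(`iteratedFDeriv_succ_apply_left`, `fderiv_continuousMultilinear_apply_const_apply`).  With `Λ = 4 levi chi` (`levi_sum`) and
`x_i = ‖dk h e i w‖² + σ²`: `x_{i+1} ≤ Λ √x_i + σ² ≤ (Λ + 1) √x_i` for `i < k`; induction on `i`: `log x_i ≤ 2 log (Λ+1) + (1/2)^i log x_0`. -/
theorem levi_chi (hh : AnalyticAt ℂ h w) (e : Cn n) (k : ℕ) {σ : ℝ} (hσ : 0 < σ) (hσ1 : σ ≤ 1) :
    0 ≤ levi (chi h e k σ) w e ∧ Real.log (‖dk h e k w‖ ^ 2 + σ ^ 2) ≤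
      2 * Real.log (4 * levi (chi h e k σ) w e + 1) + (1 / 2) ^ k * Real.log (‖h w‖ ^ 2 + σ ^ 2) := by
  have h1 : levi (chi h e k σ) w e = ∑ i ∈ Finset.range k, levi (fun x => √(‖dk h e i x‖ ^ 2 + σ ^ 2)) w e :=
    levi_sum _ (fun i _ => chi_c2 (analyticAt_dk hh e i) hσ) e
  have h2 : ∀ i, ‖dk h e (i + 1) w‖ ^ 2 / √(‖dk h e i w‖ ^ 2 + σ ^ 2) ≤
      4 * levi (fun x => √(‖dk h e i x‖ ^ 2 + σ ^ 2)) w e := fun i => by
    rw [levi_comp_hol (f := fun z : ℂ => √(‖z‖ ^ 2 + σ ^ 2)) (chi_c2 (g := id) analyticAt_id hσ)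
      (analyticAt_dk hh e i), show fderiv ℂ (dk h e i) w e = dk h e (i + 1) w from
        fderiv_continuousMultilinear_apply_const_apply (AnalyticOnNhd.iteratedFDeriv (s := {w})
          (fun _ hx => hx ▸ hh) i w rfl).differentiableAt _ _]
    exact chi_levi _ _ hσ
  have h3 : ∀ i, 0 ≤ levi (fun x => √(‖dk h e i x‖ ^ 2 + σ ^ 2)) w e := fun i => by
    linarith [h2 i, show 0 ≤ ‖dk h e (i + 1) w‖ ^ 2 / √(‖dk h e i w‖ ^ 2 + σ ^ 2) by positivity]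
  have h4 : 0 ≤ levi (chi h e k σ) w e := h1 ▸ Finset.sum_nonneg fun i _ => h3 i
  have h5 := Real.log_nonneg (show 1 ≤ 4 * levi (chi h e k σ) w e + 1 by linarith)
  refine ⟨h4, ?_⟩
  suffices ∀ i ≤ k, Real.log (‖dk h e i w‖ ^ 2 + σ ^ 2) ≤
      2 * Real.log (4 * levi (chi h e k σ) w e + 1) + (1 / 2) ^ i * Real.log (‖h w‖ ^ 2 + σ ^ 2) from this k le_rfl
  intro i hi
  induction i with
  | zero => simpa [dk] using h5
  | succ i ih =>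
    have h6 : levi (fun x => √(‖dk h e i x‖ ^ 2 + σ ^ 2)) w e ≤ levi (chi h e k σ) w e :=
      h1 ▸ Finset.single_le_sum (fun i _ => h3 i) (Finset.mem_range.2 hi)
    have h7 : σ ≤ √(‖dk h e i w‖ ^ 2 + σ ^ 2) := Real.le_sqrt_of_sq_le (le_add_of_nonneg_left (sq_nonneg _))
    have h8 := (div_le_iff₀ (hσ.trans_le h7)).1 ((h2 i).trans (mul_le_mul_of_nonneg_left h6 zero_le_four))
    have h9 := Real.log_le_log (by positivity) (show ‖dk h e (i + 1) w‖ ^ 2 + σ ^ 2 ≤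
      (4 * levi (chi h e k σ) w e + 1) * √(‖dk h e i w‖ ^ 2 + σ ^ 2) by nlinarith)
    rw [Real.log_mul (by positivity) (by positivity), Real.log_sqrt (by positivity)] at h9
    rw [pow_succ (1 / 2 : ℝ)]
    linarith [ih (Nat.le_of_succ_le hi)]

end Crest.Agent.R269
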