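import Crest.Agent.R269.R.Nrm
import Crest.Agent.R269.R.Chi
import Crest.Agent.R269.A.ThB

/-! # Row 269, block R: localisation -/

set_option autoImplicit false
set_option linter.unusedSectionVars false
set_option linter.unusedVariables false

noncomputable section

namespace Crest.Agent.R269

open Set Metric Filter Topology MeasureTheory Matrix
open Crest.AlgGeometry.ProjEmb
open scoped InnerProductSpace ContDiff

namespace Geo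

variable {N n : ℕ} {X : Geo N n} {m : ℕ} {j : ℤ} {s : X.Fi → Cn (N + 1) → ℂ}

theorem adm_zero (X : Geo N n) : X.Adm fun _ => 0 := ⟨fun _ _ => contDiffAt_const, fun _ _ _ _ => rfl⟩

theorem ell_smul (Λ : Matrix (Fin (n + 1)) (Fin (N + 1)) ℂ) (y : Cn (N + 1)) (t : ℂ) :
    ell Λ (t • y) = t * ell Λ y := by
  simp [ell, mulVec_smul]

theorem Chart.r_an (C : X.Chart) {i : ℤ} {g : Cn (N + 1) → ℂ} (hg : g ∈ X.MH i) {w : Cn n} (hw : w ∈ C.B) :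
    AnalyticAt ℂ (fun x => g (C.σ x)) w := by
  obtain ⟨g', h1, h2⟩ := hg.1 _ (C.mem hw)
  refine (h1.comp (C.an w hw)).congr (EventuallyEq.symm (Tendsto.eventually (f := C.σ) ?_ h2))
  exact tendsto_nhdsWithin_iff.2 ⟨(C.an w hw).continuousAt, mem_of_superset (C.isOpen.mem_nhds hw) C.mem⟩

theorem Chart.r_ell (C : X.Chart) {w : Cn n} (hw : w ∈ C.B) {t : ℂ} (ht : t ≠ 0) : ell C.Λ (t • C.σ w) ≠ 0 := by
  rwa [ell_smul, C.one w hw, mul_one]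

theorem Chart.r_zeta (C : X.Chart) {w : Cn n} (hw : w ∈ C.B) {t : ℂ} (ht : t ≠ 0) : zeta C.Λ (t • C.σ w) = w := by
  rw [zeta_smul _ _ ht, C.inv w hw]

theorem Chart.r_dzeta (C : X.Chart) {w : Cn n} (hw : w ∈ C.B) {t : ℂ} (ht : t ≠ 0) (e : Cn n) (α : ℂ) :
    fderiv ℂ (zeta C.Λ) (t • C.σ w) (t • (fderiv ℂ C.σ w e + α • C.σ w)) = e := by
  have h1 := (analyticAt_zeta C.Λ (C.r_ell hw ht)).differentiableAt.hasFDerivAt.comp (C.σ w)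
    ((hasFDerivAt_id (C.σ w)).const_smul t)
  have h2 : zeta C.Λ ∘ HSMul.hSMul t = zeta C.Λ := funext fun x => zeta_smul _ _ ht
  rw [h2] at h1
  exact (DFunLike.congr_fun h1.fderiv _).symm.trans (C.fderiv_zeta hw e α)

theorem exists_loc (hs : s ∈ X.Sec m j) (hnz : X.NZ s) {y : Cn (N + 1)} (hy : y ∈ X.Y) :
    ∃ (C : X.Chart) (w₀ : Cn n) (r : ℝ) (f : X.Fi) (ℓ : Cn (N + 1) →L[ℂ] ℂ) (e : Cn n) (k : ℕ) (c : ℝ),
      0 < r ∧ 0 < c ∧ e ≠ 0 ∧ ‖ℓ‖ ≤ 1 ∧ (∃ t : ℂ, t ≠ 0 ∧ y = t • C.σ w₀) ∧ ∀ w ∈ closedBall w₀ (2 * r),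
        w ∈ C.B ∧ ‖C.σ w‖ ≤ 2 * ‖ℓ (C.σ w)‖ ∧ c ≤ ‖dk (fun x => s f (C.σ x)) e k w‖ := by
  obtain ⟨C, w₀, t, hw, ht, rfl⟩ := X.exists_chart_at hy
  obtain ⟨f, hf⟩ : ∃ f, ∃ᶠ x in 𝓝[X.Y] C.σ w₀, s f x ≠ 0 := by
    by_contra h
    simp only [not_exists, not_frequently] at h
    exact hnz _ (C.mem hw) ((eventually_all.2 h).mono fun x hx => not_exists.2 hx)
  have h1 := C.eventually hw one_ne_zero
  rw [one_smul] at h1
  have h2 : Tendsto (zeta C.Λ) (𝓝[X.Y] C.σ w₀) (𝓝 w₀) := by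
    have := (analyticAt_zeta C.Λ (y := C.σ w₀) (by rw [C.one w₀ hw]; exact one_ne_zero)).continuousAt.tendsto
    rw [C.inv w₀ hw] at this
    exact this.mono_left nhdsWithin_le_nhds
  have h3 : ∃ᶠ x in 𝓝 w₀, s f (C.σ x) ≠ 0 := h2.frequently ((hf.and_eventually h1).mono fun x hx h0 => hx.1 (by
    rw [hx.2.2.2, (hs.1 f).2.1 _ (C.mem hx.2.2.1) _ hx.2.1, h0, mul_zero]))
  have h4 := C.r_an (hs.1 f) hw
  obtain ⟨e, he, k, hk⟩ := exists_dir X.npos h4 h3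
  have h5 : 0 < ‖C.σ w₀‖ := norm_pos_iff.2 (C.mem hw).1
  have h6 := (C.an w₀ hw).continuousAt
  set ℓ : Cn (N + 1) →L[ℂ] ℂ := innerSL ℂ (((‖C.σ w₀‖⁻¹ : ℝ) : ℂ) • C.σ w₀) with hℓ
  have h7 : ∀ᶠ w in 𝓝 w₀, ‖C.σ w‖ < 2 * ‖ℓ (C.σ w)‖ := by
    refine h6.norm.eventually_lt (continuousAt_const.mul (ℓ.continuous.continuousAt.comp h6).norm) ?_
    simp only [hℓ, innerSL_apply_apply, inner_smul_left, inner_self_eq_norm_sq_to_K, norm_mul, norm_pow]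
    simp only [Complex.conj_ofReal, Complex.norm_real, norm_inv, norm_norm, Complex.coe_algebraMap]
    field_simp
    norm_num
  have h8 : ∀ᶠ w in 𝓝 w₀, ‖dk (fun x => s f (C.σ x)) e k w₀‖ / 2 < ‖dk (fun x => s f (C.σ x)) e k w‖ :=
    continuousAt_const.eventually_lt (analyticAt_dk h4 e k).continuousAt.norm
      (half_lt_self (norm_pos_iff.2 hk))
  obtain ⟨r, hr, h9⟩ := nhds_basis_closedBall.eventually_iff.1 ((h7.and h8).and (C.isOpen.mem_nhds hw))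
  refine ⟨C, w₀, r / 2, f, ℓ, e, k, _, half_pos hr, half_pos (norm_pos_iff.2 hk), he, ?_, ⟨t, ht, rfl⟩,
    fun w hw' => ?_⟩
  · rw [hℓ, innerSL_apply_norm, norm_smul, Complex.norm_real, norm_inv, norm_norm, inv_mul_cancel₀ h5.ne']
  · obtain ⟨⟨a1, a2⟩, a3⟩ := h9 (x := w) (by rwa [mul_div_cancel₀ _ two_ne_zero] at hw')
    exact ⟨a3, a1.le, a2.le⟩

/-- The localisation data at `y₀`. -/
def RD (X : Geo N n) (ν : Cn (N + 1) → ℝ) (c M a b κ A C σ : ℝ) (y₀ : Cn (N + 1)) : Prop :=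
  ∃ D : X.Dat, D.a = a ∧ D.b = b ∧ D.κ = κ ∧ D.R = 1 ∧ D.u = (fun _ => 0) ∧ y₀ ∈ D.C ∧ 0 ≤ D.χ y₀ ∧
    ∀ y ∈ D.C, D.χ y ≤ M ∧ (-A ≤ D.χ y → ∃ P, D.Gain y P ∧ -Real.log P ≤ C + c * Real.log (ν y + σ ^ 2))

theorem Chart.cone_cpt (C : X.Chart) {K : Set (Cn n)} (hK : IsCompact K) (hKB : K ⊆ C.B) :
    IsCompact ({x | ∃ w ∈ K, ∃ t : ℂ, t ≠ 0 ∧ x = t • C.σ w} ∩ sphere 0 1) := by
  have h0 : ∀ w ∈ K, ‖C.σ w‖ ≠ 0 := fun w hw => norm_ne_zero_iff.2 (C.mem (hKB hw)).1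
  have h1 : ContinuousOn (fun p : Cn n × ℂ => C.σ p.1) (K ×ˢ sphere (0 : ℂ) 1) :=
    (C.an.continuousOn.mono hKB).comp continuousOn_fst fun p hp => hp.1
  have h4 : ContinuousOn (fun p : Cn n × ℂ => (p.2 * ((‖C.σ p.1‖⁻¹ : ℝ) : ℂ)) • C.σ p.1) (K ×ˢ sphere (0 : ℂ) 1) :=
    (continuousOn_snd.mul (Complex.continuous_ofReal.comp_continuousOn
      (h1.norm.inv₀ fun p hp => h0 _ hp.1))).smul h1
  refine Eq.subst (Eq.symm ?_) ((hK.prod (isCompact_sphere (0 : ℂ) 1)).image_of_continuousOn h4)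
  ext x
  constructor
  · rintro ⟨⟨w, hw, t, ht, rfl⟩, h2⟩
    rw [mem_sphere_zero_iff_norm, norm_smul] at h2
    have h3 : ((‖C.σ w‖ : ℝ) : ℂ) ≠ 0 := by exact_mod_cast h0 w hw
    refine ⟨(w, t * (‖C.σ w‖ : ℝ)), ⟨hw, by simpa using h2⟩, ?_⟩
    simp [mul_assoc, mul_inv_cancel₀ h3]
  · rintro ⟨⟨w, u⟩, ⟨hw, hu⟩, rfl⟩
    rw [mem_sphere_zero_iff_norm] at hu
    refine ⟨⟨w, hw, _, mul_ne_zero (norm_ne_zero_iff.1 (hu ▸ one_ne_zero)) ?_, rfl⟩, ?_⟩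
    · exact_mod_cast inv_ne_zero (h0 w hw)
    · simp [norm_smul, show ‖u‖ = 1 from hu, inv_mul_cancel₀ (h0 w hw)]

theorem rd_loc (hs : s ∈ X.Sec m j) (C : X.Chart) {w₀ : Cn n} {r : ℝ} {f : X.Fi} {ℓ : Cn (N + 1) →L[ℂ] ℂ}
    {e : Cn n} {k : ℕ} {c : ℝ} (hr : 0 < r) (hc : 0 < c) (he : e ≠ 0) (hℓ : ‖ℓ‖ ≤ 1)
    (hK : ∀ w ∈ closedBall w₀ (2 * r),
      w ∈ C.B ∧ ‖C.σ w‖ ≤ 2 * ‖ℓ (C.σ w)‖ ∧ c ≤ ‖dk (fun x => s f (C.σ x)) e k w‖) :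
    ∃ M : ℝ, 0 ≤ M ∧ ∀ a b κ A : ℝ, 0 ≤ a → 0 < κ → 0 ≤ A → ∃ C' : ℝ, ∀ σ ∈ Ioc (0 : ℝ) 1, ∀ w₁ ∈ ball w₀ r,
      ∀ t : ℂ, t ≠ 0 → X.RD (X.nrm m j s) ((1 / 2) ^ (k + 1)) M a b κ A C' σ (t • C.σ w₁) := by
  set h : Cn n → ℂ := fun x => s f (C.σ x) with hh
  have hB : closedBall w₀ (2 * r) ⊆ C.B := fun w hw => (hK w hw).1
  have han : ∀ w ∈ C.B, AnalyticAt ℂ h w := fun w hw => C.r_an (hs.1 f) hw
  have cK := isCompact_closedBall w₀ (2 * r)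
  obtain ⟨M, hM⟩ := cK.bddAbove_image (f := chi h e k 1) fun w hw =>
    (contDiffAt_chi (han w (hB hw)) e k one_pos).continuousAt.continuousWithinAt
  obtain ⟨M₂, hM₂⟩ := cK.bddAbove_image
    (f := fun w => ‖X.dv f (C.σ w)‖ ^ (2 * m) * (‖C.σ w‖ ^ 2) ^ (j - m * (n + 1))) fun w hw =>
    ((((X.analyticAt_dv f _).comp (C.an w (hB hw))).continuousAt.norm.pow _).mul
      (((C.an w (hB hw)).continuousAt.norm.pow 2).zpow₀ _ (.inl (pow_ne_zero 2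
        (norm_ne_zero_iff.2 (C.mem (hB hw)).1))))).continuousWithinAt
  obtain ⟨c₁, c₂, c1, c2, hom⟩ := C.om_bounds cK hB
  have chi0 : ∀ σ w, 0 ≤ chi h e k σ w := fun σ w => Finset.sum_nonneg fun _ _ => Real.sqrt_nonneg _
  have M0 : 0 ≤ M := (chi0 1 w₀).trans (hM ⟨w₀, mem_closedBall_self (by positivity), rfl⟩)
  have E0 : 0 < ‖e‖ ^ 2 := pow_pos (norm_pos_iff.2 he) 2
  refine ⟨M, M0, fun a b κ A₀ ha hκ hA₀ => ?_⟩
  obtain ⟨Ce, Ce0, hCe⟩ := X.eta_abs_le a b X.adm_zero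
  obtain ⟨A, A0, hA⟩ : ∃ A : ℝ, 0 < A ∧ A * r ^ 2 = M + A₀ + 1 :=
    ⟨(M + A₀ + 1) / r ^ 2, by positivity, by field_simp⟩
  obtain ⟨C₅, C5, hC₅⟩ : ∃ C₅ : ℝ, 0 < C₅ ∧ C₅ = Ce + κ + A / c₁ := ⟨_, by positivity, rfl⟩
  refine ⟨Real.log (4 * (c₂ * ‖e‖ ^ 2 * (1 + C₅)) + 1) - Real.log c + (1 / 2) ^ (k + 1) * Real.log (max 1 M₂),
    fun σ hσ w₁ hw₁ t₀ ht₀ => ?_⟩
  have hsub : closedBall w₁ r ⊆ closedBall w₀ (2 * r) :=
    closedBall_subset_closedBall' (by linarith [mem_ball.1 hw₁])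
  set φ : Cn n → ℝ := fun w => chi h e k σ w - A * ‖w - w₁‖ ^ 2 with hφ
  have q2 : ∀ w : Cn n, ContDiffAt ℝ 2 (fun w : Cn n => ‖w - w₁‖ ^ 2) w := fun w =>
    (contDiffAt_id.sub contDiffAt_const).norm_sq ℝ
  have φ2 : ∀ w ∈ C.B, ContDiffAt ℝ 2 φ w := fun w hw =>
    (contDiffAt_chi (han w hw) e k hσ.1).sub (contDiffAt_const.mul (q2 w))
  have χ2 : ∀ w ∈ C.B, ∀ t : ℂ, t ≠ 0 → ContDiffAt ℝ 2 (fun x => φ (zeta C.Λ x)) (t • C.σ w) := fun w hw t ht =>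
    ContDiffAt.comp (g := φ) _ (by rw [C.r_zeta hw ht]; exact φ2 w hw)
      ((analyticAt_zeta C.Λ (C.r_ell hw ht)).contDiffAt.restrict_scalars ℝ)
  refine ⟨{ a := a, b := b, κ := κ, R := 1, u := fun _ => 0, ℓ := ℓ
            C := {x | ∃ w ∈ closedBall w₁ r, ∃ t : ℂ, t ≠ 0 ∧ x = t • C.σ w}
            χ := fun x => φ (zeta C.Λ x), ha := ha, hκ := hκ, hR := one_pos, hu := X.adm_zero, hℓ := hℓ
            CY := ?_, Cne := ⟨_, w₁, mem_closedBall_self hr.le, 1, one_ne_zero, rfl⟩, Ccone := ?_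
            Ccpt := C.cone_cpt (isCompact_closedBall _ _) (hsub.trans hB), Cℓ := ?_, χcont := ?_
            χhom := fun y _ t ht => by rw [zeta_smul _ _ ht] },
    rfl, rfl, rfl, rfl, rfl, ⟨w₁, mem_closedBall_self hr.le, t₀, ht₀, rfl⟩, ?_, ?_⟩
  · rintro _ ⟨w, hw, t, ht, rfl⟩
    exact X.smul_mem_Y (C.mem (hB (hsub hw))) ht
  · rintro _ ⟨w, hw, t, ht, rfl⟩ t' ht'
    exact ⟨w, hw, t' * t, mul_ne_zero ht' ht, smul_smul _ _ _⟩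
  · rintro _ ⟨w, hw, t, ht, rfl⟩
    rw [map_smul, norm_smul, norm_smul, mul_left_comm]
    exact mul_le_mul_of_nonneg_left (hK w (hsub hw)).2.1 (norm_nonneg t)
  · rintro _ ⟨w, hw, t, ht, rfl⟩
    exact (χ2 w (hB (hsub hw)) t ht).continuousAt.continuousWithinAt
  · simp only [C.r_zeta (hB (hsub (mem_closedBall_self hr.le))) ht₀, hφ]
    simpa using chi0 σ w₁
  rintro _ ⟨w, hw, t, ht, rfl⟩
  have hwB := hB (hsub hw)
  have hY := C.mem hwB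
  have b1 : chi h e k σ w ≤ M := le_trans (Finset.sum_le_sum fun i _ => by
    gcongr
    exacts [hσ.1.le, hσ.2]) (hM ⟨w, hsub hw, rfl⟩)
  simp only [C.r_zeta hwB ht]
  refine ⟨le_trans (sub_le_self _ (by positivity)) b1, fun hA' => ?_⟩
  have b2 : w ∈ ball w₁ r := by
    rw [mem_ball, dist_eq_norm]
    refine lt_of_pow_lt_pow_left₀ 2 hr.le (lt_of_mul_lt_mul_left ?_ A0.le)
    simp only [hφ] at hA'
    linarith
  obtain ⟨l0, l1⟩ := levi_chi (han w hwB) e k hσ.1 hσ.2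
  obtain ⟨o1, o2⟩ := hom w (hsub hw) e
  have o0 : 0 < om (C.σ w) (fderiv ℂ C.σ w e) := lt_of_lt_of_le (by positivity) o1
  have lφ : levi φ w e = levi (chi h e k σ) w e - A * ‖e‖ ^ 2 := by
    rw [hφ, levi_sub (contDiffAt_chi (han w hwB) e k hσ.1) (contDiffAt_const.mul (q2 w)),
      levi_const_mul (q2 w), levi_comp_hol (f := fun x : Cn n => ‖x‖ ^ 2) (φ := fun x => x - w₁)
        (contDiffAt_id.norm_sq ℝ) (analyticAt_id.sub analyticAt_const), levi_norm_sq]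
    simp [fderiv_sub_const]
  generalize levi (chi h e k σ) w e = lv at l0 l1 lφ
  have hT : fderiv ℂ C.σ w e ∈ X.T (C.σ w) := X.fderiv_mem_T (C.an w hwB).differentiableAt
    (mem_of_superset (C.isOpen.mem_nhds hwB) C.mem) e
  refine ⟨max 1 (lv / (c₂ * ‖e‖ ^ 2) - C₅), ?_, ?_⟩
  · rcases le_total (lv / (c₂ * ‖e‖ ^ 2) - C₅) 1 with h1 | h1
    · exact .inl (max_eq_left h1)
    rw [max_eq_right h1]
    have hT' : t • fderiv ℂ C.σ w e ∈ X.T (t • C.σ w) := by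
      rw [X.T_smul _ ht]; exact Submodule.smul_mem _ _ hT
    refine .inr ⟨by linarith, ?_, χ2 w hwB t ht, _, hT', fun h2 => ?_, fun v hv => ?_⟩
    · have h2 := (analyticAt_zeta C.Λ (C.r_ell hwB ht)).continuousAt.tendsto
      rw [C.r_zeta hwB ht] at h2
      filter_upwards [C.eventually hwB ht, (h2.mono_left nhdsWithin_le_nhds).eventually
        (isOpen_ball.mem_nhds b2)] with x h3 h4 using ⟨_, ball_subset_closedBall h4, _, h3.1, h3.2.2⟩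
    · obtain ⟨α, hα⟩ := Submodule.mem_span_singleton.1 h2
      have h3 := om_add_self (t • C.σ w) 0 α
      rw [zero_add, hα, om_smul_smul _ _ ht] at h3
      rw [h3] at o0
      simp [om] at o0
    · obtain ⟨α, β, rfl⟩ := Submodule.mem_span_pair.1 hv
      have h2 := (abs_le.1 (hCe _ (X.smul_mem_Y hY ht) _ (Submodule.add_mem _ (Submodule.smul_mem _ α
        (X.self_mem_T (X.smul_mem_Y hY ht))) (Submodule.smul_mem _ β hT')))).1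
      have h3 : om (t • C.σ w) (α • t • C.σ w + β • t • fderiv ℂ C.σ w e) =
          ‖β‖ ^ 2 * om (C.σ w) (fderiv ℂ C.σ w e) := by
        rw [add_comm (α • _), om_add_self, om_smul, om_smul_smul _ _ ht]
      have h4 : levi (fun x => φ (zeta C.Λ x)) (t • C.σ w) (α • t • C.σ w + β • t • fderiv ℂ C.σ w e) =
          ‖β‖ ^ 2 * (lv - A * ‖e‖ ^ 2) := by
        rw [levi_comp_hol (by rw [C.r_zeta hwB ht]; exact φ2 w hwB) (analyticAt_zeta C.Λ (C.r_ell hwB ht)),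
          show α • t • C.σ w + β • t • fderiv ℂ C.σ w e = t • (fderiv ℂ C.σ w (β • e) + α • C.σ w) by
            rw [map_smul]; module, C.r_dzeta hwB ht, C.r_zeta hwB ht, levi_smul, lφ]
      have h5 : lv / (c₂ * ‖e‖ ^ 2) * om (C.σ w) (fderiv ℂ C.σ w e) ≤ lv := by
        rw [div_mul_eq_mul_div, div_le_iff₀ (by positivity)]; gcongr
      have h6 : A * ‖e‖ ^ 2 ≤ A / c₁ * om (C.σ w) (fderiv ℂ C.σ w e) := by
        rw [div_mul_eq_mul_div, le_div_iff₀ c1, mul_assoc, mul_comm _ c₁]; gcongr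
      simp only [h4]
      rw [h3] at h2 ⊢
      subst hC₅
      nlinarith [mul_le_mul_of_nonneg_left h5 (sq_nonneg ‖β‖), mul_le_mul_of_nonneg_left h6 (sq_nonneg ‖β‖)]
  · have p1 := le_max_left 1 (lv / (c₂ * ‖e‖ ^ 2) - C₅)
    have p2 := le_max_right 1 (lv / (c₂ * ‖e‖ ^ 2) - C₅)
    generalize max 1 (lv / (c₂ * ‖e‖ ^ 2) - C₅) = P at p1 p2
    rw [sub_le_iff_le_add, div_le_iff₀ (by positivity)] at p2
    have p3 : 4 * lv + 1 ≤ (4 * (c₂ * ‖e‖ ^ 2 * (1 + C₅)) + 1) * P := by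
      nlinarith [mul_le_mul_of_nonneg_left p1 (show 0 ≤ c₂ * ‖e‖ ^ 2 * C₅ by positivity)]
    have p4 := Real.log_le_log (by positivity) p3
    rw [Real.log_mul (by positivity) (by positivity)] at p4
    have p5 : Real.log (c ^ 2) ≤ Real.log (‖dk h e k w‖ ^ 2 + σ ^ 2) := Real.log_le_log (by positivity)
      (le_add_of_le_of_nonneg (pow_le_pow_left₀ hc.le (hK w (hsub hw)).2.2 2) (sq_nonneg _))
    have ν0 := nrm_nonneg (m := m) (j := j) (s := s) (C.σ w)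
    have σ0 := hσ.1
    have p6 : ‖h w‖ ^ 2 + σ ^ 2 ≤ max 1 M₂ * (X.nrm m j s (C.σ w) + σ ^ 2) := by
      rw [mul_add, hh, nrm_eq hs hY f, mul_comm]
      gcongr
      exacts [(hM₂ ⟨w, hsub hw, rfl⟩).trans (le_max_right _ _), le_mul_of_one_le_left (sq_nonneg _) (le_max_left _ _)]
    have p7 := mul_le_mul_of_nonneg_left (Real.log_le_log (by positivity) p6)
      (show (0 : ℝ) ≤ (1 / 2) ^ k by positivity)
    rw [Real.log_mul (by positivity) (by positivity)] at p7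
    rw [Real.log_pow] at p5
    rw [nrm_smul hs hY ht, pow_succ (1 / 2 : ℝ)]
    push_cast at p5
    linarith

theorem exists_rd (hs : s ∈ X.Sec m j) (hnz : X.NZ s) : ∃ c M : ℝ, 0 < c ∧ 0 ≤ M ∧
    ∀ a b κ A : ℝ, 0 ≤ a → 0 < κ → 0 ≤ A → ∃ C : ℝ, ∀ σ ∈ Ioc (0 : ℝ) 1, ∀ y ∈ X.Y,
      X.RD (X.nrm m j s) c M a b κ A C σ y := by
  choose C w₀ r f ℓ e k c hr hc he hℓ hy hK using fun y : X.Y => exists_loc hs hnz y.2
  choose M M0 hM using fun y => rd_loc hs (C y) (hr y) (hc y) (he y) (hℓ y) (hK y)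
  obtain ⟨S, hS⟩ := X.exists_atlas C w₀ r hr
    (fun y => (hK y _ (mem_closedBall_self (by linarith [hr y]))).1) hy
  obtain ⟨B, B1, hB⟩ := nrm_bdd hs
  refine ⟨(1 / 2) ^ (S.sup k + 1), ∑ y ∈ S, M y, by positivity, Finset.sum_nonneg fun y _ => M0 y,
    fun a b κ A ha hκ hA => ?_⟩
  choose C' hC' using fun y => hM y a b κ A ha hκ hA
  refine ⟨∑ y ∈ S, |C' y| + Real.log (B + 1), fun σ hσ x hx => ?_⟩
  obtain ⟨y, hyS, w, hw, t, ht, rfl⟩ := hS x hx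
  obtain ⟨D, d1, d2, d3, d4, d5, d6, d7, d8⟩ := hC' y σ hσ w hw.1 t ht
  refine ⟨D, d1, d2, d3, d4, d5, d6, d7, fun z hz => ⟨(d8 z hz).1.trans
    (Finset.single_le_sum (fun y _ => M0 y) hyS), fun h => ?_⟩⟩
  obtain ⟨P, p1, p2⟩ := (d8 z hz).2 h
  refine ⟨P, p1, p2.trans ?_⟩
  have h1 := (le_abs_self _).trans (Finset.single_le_sum (fun y _ => abs_nonneg (C' y)) hyS)
  have h2 : Real.log (X.nrm m j s z + σ ^ 2) ≤ Real.log (B + 1) :=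
    Real.log_le_log (add_pos_of_nonneg_of_pos (nrm_nonneg z) (pow_pos hσ.1 2))
      (add_le_add (hB z (D.CY hz)) (pow_le_one₀ hσ.1.le hσ.2))
  have h3 : (1 / 2 : ℝ) ^ (S.sup k + 1) ≤ (1 / 2) ^ (k y + 1) :=
    pow_le_pow_of_le_one (by norm_num) (by norm_num) (Nat.succ_le_succ (Finset.le_sup hyS))
  have h4 : (1 / 2 : ℝ) ^ (k y + 1) ≤ 1 := pow_le_one₀ (by norm_num) (by norm_num)
  have h5 : (0 : ℝ) ≤ (1 / 2) ^ (S.sup k + 1) := by positivity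
  have h6 := Real.log_nonneg (show 1 ≤ B + 1 by linarith)
  nlinarith [mul_le_mul_of_nonneg_left h2 (sub_nonneg.2 h3)]

end Geo

end Crest.Agent.R269
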