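import Crest.Agent.R269.R.Loc

/-! # Row 269, block R: the recursion -/

set_option autoImplicit false
set_option linter.unusedSectionVars false
set_option linter.unusedVariables false

noncomputable section

namespace Crest.Agent.R269

open Set Metric Filter Topology MeasureTheory Matrix
open Crest.AlgGeometry.ProjEmb
open scoped InnerProductSpace ContDiff

theorem rec_bdd {S : ℕ → ℝ} {C A B E : ℝ} (hC : 0 ≤ C) (hB : 0 ≤ B) (h1 : ∀ k, S k ≤ C * (1 + k))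
    (h2 : ∀ k, ∃ ρ, 0 ≤ ρ ∧ ρ ≤ 2 * (S (k + 1) - S k + E) ∧ S k ≤ A + B * Real.log (1 + ρ)) :
    ∃ T, ∀ k, S k ≤ T := by
  refine ⟨A + B * Real.log (1 + 2 * |C + 1 + E|), fun k => le_of_not_gt fun hk => ?_⟩
  have C0 : S k ≤ C * (1 + k) := h1 k
  have h3 : ∀ i, A + B * Real.log (1 + 2 * |C + 1 + E|) < S i → S i + (C + 1) ≤ S (i + 1) := fun i hi =>
    le_of_not_gt fun h => by
      obtain ⟨ρ, r0, r1, r2⟩ := h2 i
      have := mul_le_mul_of_nonneg_left (Real.log_le_log (by positivity)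
        (show 1 + ρ ≤ 1 + 2 * |C + 1 + E| by linarith [le_abs_self (C + 1 + E)])) hB
      linarith
  have h4 : ∀ i : ℕ, S k + (C + 1) * i ≤ S (k + i) := fun i => by
    induction i with
    | zero => simp
    | succ i ih =>
      have := h3 (k + i) (hk.trans_le (le_trans (le_add_of_nonneg_right (by positivity)) ih))
      rw [← add_assoc]; push_cast; linarith
  obtain ⟨i, hi⟩ := exists_nat_gt (C * (1 + k) - S k)
  have := (h4 i).trans (h1 _)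
  push_cast at this
  linarith

theorem log_reg {R τ : ℝ} (hR : 0 ≤ R) (h0 : 0 < τ) (h1 : τ ≤ 1) :
    Real.log (1 + R) ≤ Real.log (1 + τ * R) - Real.log τ := by
  rw [← Real.log_div (by positivity) h0.ne']
  refine Real.log_le_log (by positivity) ?_
  rw [le_div_iff₀ h0]; linarith

theorem log_lin {K R τ : ℝ} (hK : 0 ≤ K) (hR : 0 ≤ R) (h0 : 0 < τ) (h1 : τ ≤ 1) :
    K * (1 + Real.log (1 + R)) - τ * R ≤ K + 1 + K * Real.log (K + 1) - K * Real.log τ := by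
  have h2 := Real.log_le_sub_one_of_pos (show 0 < (1 + τ * R) / (K + 1) by positivity)
  rw [Real.log_div (by positivity) (by positivity)] at h2
  have h3 : K * ((1 + τ * R) / (K + 1)) ≤ 1 + τ * R := by
    rw [← mul_div_assoc, div_le_iff₀ (by positivity)]; nlinarith [mul_nonneg h0.le hR]
  nlinarith [mul_le_mul_of_nonneg_left h2 hK, mul_le_mul_of_nonneg_left (log_reg hR h0 h1) hK]

theorem log_xi {κ : ℝ} (hκ : 0 < κ) : ∃ C, ∀ s : ℝ,
    -Real.log (κ * 1 ^ 2 / (2 * √(1 ^ 2 + s ^ 2) ^ 3)) - xi κ 1 s / 2 ≤ C := by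
  refine ⟨-Real.log (κ / 2) - 3 * Real.log (κ / 6) + κ / 2, fun s => ?_⟩
  have h0 : 0 < √(1 ^ 2 + s ^ 2) := by positivity
  have h1 := Real.log_le_sub_one_of_pos (show 0 < κ / 6 * √(1 ^ 2 + s ^ 2) by positivity)
  rw [Real.log_mul (by positivity) h0.ne'] at h1
  rw [xi, one_pow 2, mul_one, ← div_div, Real.log_div (by positivity) (by positivity), Real.log_pow]
  rw [one_pow] at h1
  push_cast
  linarith

theorem two_cases {c c₀ J B CJ ν L l t : ℝ} (hc : c ∈ Ioc 0 c₀) (J0 : 0 ≤ J) (B1 : 1 ≤ B) (t0 : t ≤ 0) (l0 : 0 ≤ l)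
    (ν0 : 0 ≤ ν) (hB : ν ≤ B) (h1 : 0 < ν → Real.log ν - CJ ≤ L) (h2 : -L ≤ J * (1 + l - t)) :
    c₀ * Real.log (ν + Real.exp (J * t) ^ 2) - c * L ≤
      c₀ * Real.log 2 + c₀ * (Real.log B + |CJ| + J) + c₀ * J * l := by
  have c0 := hc.1.trans_le hc.2
  have lB := Real.log_nonneg B1
  have σ0 := pow_pos (Real.exp_pos (J * t)) 2
  have g0 := mul_nonneg (mul_nonneg c0.le J0) l0
  have g1 := mul_le_mul_of_nonneg_right hc.2 (abs_nonneg CJ)
  rcases le_total ν (Real.exp (J * t) ^ 2) with g | g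
  · have g2 := mul_le_mul_of_nonneg_left (Real.log_le_log (by positivity)
      ((add_le_add_left g _).trans_eq (two_mul _).symm)) c0.le
    rw [Real.log_mul two_ne_zero σ0.ne', Real.log_pow, Real.log_exp] at g2
    have g4 := (mul_le_mul_of_nonneg_left h2 hc.1.le).trans
      (mul_le_mul_of_nonneg_right hc.2 (mul_nonneg J0 (by linarith)))
    have g5 := mul_nonneg (mul_nonneg c0.le J0) (neg_nonneg.2 t0)
    push_cast at g2
    linarith [mul_nonneg c0.le lB, mul_nonneg c0.le (abs_nonneg CJ)]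
  · have ν1 := σ0.trans_le g
    have g2 := mul_le_mul_of_nonneg_left (Real.log_le_log (by positivity)
      ((add_le_add_right g _).trans_eq (two_mul _).symm)) c0.le
    rw [Real.log_mul two_ne_zero ν1.ne'] at g2
    have g3 := mul_le_mul_of_nonneg_left (h1 ν1) hc.1.le
    have g4 := mul_le_mul_of_nonneg_left (Real.log_le_log ν1 hB) (sub_nonneg.2 hc.2)
    have g5 := mul_le_mul_of_nonneg_left (le_abs_self CJ) hc.1.le
    linarith [mul_nonneg hc.1.le lB, mul_nonneg c0.le J0]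

namespace Geo

variable {N n : ℕ} {X : Geo N n}

theorem qf_smul_one (K : ℝ) (v : Cn (N + 1)) : qf ((K : ℂ) • (1 : Matrix _ _ ℂ)) v = K * ‖v‖ ^ 2 := by
  have : star v.ofLp ⬝ᵥ v.ofLp = ((‖v‖ ^ 2 : ℝ) : ℂ) := by
    rw [dotProduct_comm, ← EuclideanSpace.inner_eq_star_dotProduct, inner_self_eq_norm_sq_to_K]; simp
  rw [qf, smul_mulVec, one_mulVec, dotProduct_smul, this, smul_eq_mul, ← Complex.ofReal_mul, Complex.ofReal_re]

theorem maj_const (X : Geo N n) {K : ℝ} (hK : 0 < K) :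
    X.Maj (fun _ => (K : ℂ) • 1) fun _ => (n + 1) * Real.log K where
  herm _ _ := by simp [IsHermitian]
  cont := continuousOn_const
  hom _ _ _ _ := rfl
  pos _ _ v _ hv := by rw [qf_smul_one]; exact mul_pos hK (pow_pos (norm_pos_iff.2 hv) 2)
  dcont := continuousOn_const
  det _ _ U _ := by
    rw [Matrix.mul_smul, Matrix.mul_one, Matrix.smul_mul, det_smul, Fintype.card_fin, ← Complex.ofReal_pow,
      Complex.re_ofReal_mul, gram, ← Nat.cast_succ, ← Real.log_pow, Real.exp_log (by positivity)]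

theorem NN_le (d : X.Disc) (a b : ℝ) {κ : ℝ} (hκ : 0 < κ) :
    X.NN a b κ 1 (fun _ => 0) d ≤ -(a * d.TB + b * d.TH) + κ * d.TH - xi κ 1 d.s0 / 2 := by
  have := d.xi_le_avg hκ.le one_pos
  rw [NN, d.avg_const]
  linarith

theorem stR' (h : X.Core) {m : ℕ} {j : ℤ} {s} (hs : s ∈ X.Sec m j) (hnz : X.NZ s) :
    ∃ c₀ : ℝ, 0 < c₀ ∧ ∀ c ∈ Ioc 0 c₀, ∀ κ : ℝ, 0 < κ →
      ∃ C, X.PB (1 + c * m) (-(n + 1) * (1 + c * m) + c * j + κ) C := by
  obtain ⟨𝒟, Reg, CH, CH0, h1, h2, h3, h4, h5⟩ := h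
  obtain ⟨c₀, M, c0, M0, hrd⟩ := exists_rd hs hnz
  obtain ⟨B, B1, hB⟩ := nrm_bdd hs
  obtain ⟨CJ, hJ⟩ := log_nrm_le hs
  refine ⟨c₀, c0, fun c hc κ hκ => ?_⟩
  obtain ⟨a, ha⟩ : ∃ a : ℝ, a = 1 + c * m := ⟨_, rfl⟩
  obtain ⟨b, hb⟩ : ∃ b : ℝ, b = -(n + 1) * a + c * j + κ := ⟨_, rfl⟩
  rw [← ha, ← hb]
  have a0 : 0 ≤ a := by have := hc.1; rw [ha]; positivity
  obtain ⟨C, hC⟩ := hrd a b κ (CH + 1) a0 hκ (by positivity)
  obtain ⟨Ce, Ce0, hCe⟩ := X.eta_abs_le a b X.adm_zero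
  obtain ⟨CΓ, CΓ0, h6⟩ := h5 _ _ (X.maj_const (show 0 < Ce + 2 * κ by positivity))
  obtain ⟨Cx, hCx⟩ := log_xi hκ
  obtain ⟨J, J0, hJ'⟩ : ∃ J : ℝ, 0 ≤ J ∧ J = |(j : ℝ) - m * (n + 1)| * CH := ⟨_, by positivity, rfl⟩
  obtain ⟨K, K0, hK⟩ : ∃ K : ℝ, 0 ≤ K ∧ K = (|b| + κ) * CH := ⟨_, by positivity, rfl⟩
  have b1 : ∀ τ ∈ Ioc (0 : ℝ) 1, ∀ d ∈ 𝒟, X.NN a b κ 1 (fun _ => 0) d - τ * Reg d ≤
      K + 1 + K * Real.log (K + 1) - K * Real.log τ := fun τ hτ d hd => by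
    refine le_trans (sub_le_sub_right ((NN_le d a b hκ).trans ?_) _) (log_lin K0 (h2 d hd).1 hτ.1 hτ.2)
    have e1 := mul_le_mul_of_nonneg_left (h2 d hd).2 (show 0 ≤ |b| + κ by positivity)
    have e2 := mul_le_mul_of_nonneg_right (neg_le_abs b) d.TH_nonneg
    have e3 := mul_nonneg a0 d.TB_nonneg
    have e4 := xi_nonneg hκ.le one_pos d.s0
    rw [hK]
    linarith
  obtain ⟨y₁, hy₁⟩ := X.Y_nonempty
  obtain ⟨d₁, hd₁, -⟩ := h3 y₁ hy₁
  have : Nonempty 𝒟 := ⟨⟨d₁, hd₁⟩⟩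
  obtain ⟨S, hS1, hS2⟩ : ∃ S : ℝ → ℝ, (∀ τ ∈ Ioc (0 : ℝ) 1, ∀ d ∈ 𝒟, X.NN a b κ 1 (fun _ => 0) d - τ * Reg d ≤ S τ) ∧
      ∀ τ ∈ Ioc (0 : ℝ) 1, ∃ d ∈ 𝒟, S τ - 1 ≤ X.NN a b κ 1 (fun _ => 0) d - τ * Reg d := by
    refine ⟨fun τ => ⨆ d : 𝒟, X.NN a b κ 1 (fun _ => 0) d - τ * Reg d, fun τ hτ d hd =>
      le_ciSup (f := fun d : 𝒟 => X.NN a b κ 1 (fun _ => 0) d - τ * Reg d)
        ⟨_, forall_mem_range.2 fun d => b1 τ hτ d d.2⟩ ⟨d, hd⟩, fun τ _ => ?_⟩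
    obtain ⟨d, hd⟩ := exists_lt_of_lt_ciSup (sub_one_lt (⨆ d : 𝒟, X.NN a b κ 1 (fun _ => 0) d - τ * Reg d))
    exact ⟨d, d.2, hd.le⟩
  have step : ∀ τ ∈ Ioc (0 : ℝ) 1, ∃ ρ, 0 ≤ ρ ∧ ρ ≤ 2 * (S (τ / 2) - S τ + (CH + M + 1)) ∧
      S τ ≤ CH + M + 1 + (n + 1) * Real.log (Ce + 2 * κ) + 1 + Cx + (n + 1) * Real.log (1 + CΓ) + C +
        c₀ * Real.log 2 + c₀ * (Real.log B + |CJ| + J) + (n + 1 + c₀ * J) * Real.log (1 + ρ) := fun τ hτ => by
    obtain ⟨d₀, hd₀, e0⟩ := hS2 τ hτ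
    have lτ := Real.log_nonpos hτ.1.le hτ.2
    obtain ⟨D, rfl, rfl, rfl, d4, d5, d6, d7, d8⟩ := hC (Real.exp (J * Real.log τ))
      ⟨Real.exp_pos _, Real.exp_le_one_iff.2 (mul_nonpos_of_nonneg_of_nonpos J0 lτ)⟩ _
      (d₀.memY 0 (mem_closedBall_self zero_le_one))
    obtain ⟨d, hd, e1, e2, e3⟩ := h6 D (fun y hy v hv => by
      have f0 : 0 < ‖y‖ ^ 2 := pow_pos (norm_pos_iff.2 hy.1) 2
      have f1 := (le_div_iff₀ f0).1 (om_le (y := y) v)
      have f2 := mul_le_mul_of_nonneg_left (abs_le.1 (hCe y hy v hv)).2 f0.le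
      have f3 : ‖⟪y, v⟫_ℂ‖ ^ 2 / ‖y‖ ^ 2 ≤ ‖v‖ ^ 2 := by
        rw [div_le_iff₀' f0, ← mul_pow]
        exact pow_le_pow_left₀ (norm_nonneg _) (norm_inner_le_norm y v) 2
      rw [qf_smul_one, d4, d5, div_one]
      linarith only [f2, mul_le_mul_of_nonneg_left f1 Ce0, mul_le_mul_of_nonneg_left f1 hκ.le,
        mul_le_mul_of_nonneg_left f3 hκ.le]) τ hτ.1
    have e4 := e2 d₀ hd₀ d6
    have e5 := h1 d D.ℓ D.hℓ (D.Cℓ _ e1)
    have e6 : 0 ≤ d₀.Phi D.ℓ := sq_nonneg _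
    have e7 := hS1 τ hτ d hd
    have e8 := hS1 (τ / 2) ⟨half_pos hτ.1, by linarith [hτ.1, hτ.2]⟩ d hd
    obtain ⟨e9, e10⟩ := d8 _ e1
    simp only [Dat.L, d4, d5] at e4
    obtain ⟨P, p1, p2⟩ := e10 (by linarith)
    have e11 := e3 P p1
    obtain ⟨R0, e12⟩ := h2 d hd
    have ρ0 := mul_nonneg hτ.1.le R0
    refine ⟨τ * Reg d, ρ0, by linarith, ?_⟩
    have e13 := NN_le d D.a D.b hκ
    have e14 := hCx d.s0
    rw [d.avg_const, d4] at e11
    have l0 := Real.log_nonneg (le_add_of_nonneg_right ρ0 : 1 ≤ 1 + τ * Reg d)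
    have e15 : Real.log (1 + CΓ * τ * (1 + Reg d)) ≤ Real.log (1 + CΓ) + Real.log (1 + τ * Reg d) := by
      have := hτ.1
      rw [← Real.log_mul (by positivity) (by positivity)]
      refine Real.log_le_log (by positivity) ?_
      linarith only [mul_le_mul_of_nonneg_left hτ.2 CΓ0, ρ0]
    have e16 := two_cases (L := m * d.TB + (j - m * (n + 1)) * d.TH) hc J0 B1 lτ l0 (nrm_nonneg (d.G 0))
      (hB _ (d.memY 0 (mem_closedBall_self zero_le_one))) (hJ d) (by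
        have k1 := mul_le_mul_of_nonneg_right (neg_le_abs ((j : ℝ) - m * (n + 1))) d.TH_nonneg
        have k2 := mul_le_mul_of_nonneg_left e12 (abs_nonneg ((j : ℝ) - m * (n + 1)))
        have k3 := mul_le_mul_of_nonneg_left (log_reg R0 hτ.1 hτ.2) J0
        have k4 := mul_nonneg (Nat.cast_nonneg m) d.TB_nonneg
        rw [← mul_assoc, ← hJ'] at k2
        linarith only [k1, k2, k3, k4])
    have e17 := mul_le_mul_of_nonneg_left e15 (show (0 : ℝ) ≤ n + 1 by positivity)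
    have e18 : D.a * d.TB + D.b * d.TH = d.TB - (n + 1) * d.TH + c * (m * d.TB + (j - m * (n + 1)) * d.TH) +
        D.κ * d.TH := by rw [hb, ha]; ring
    linarith
  have hτ : ∀ k : ℕ, (1 / 2 : ℝ) ^ k ∈ Ioc (0 : ℝ) 1 := fun k =>
    ⟨by positivity, pow_le_one₀ (by norm_num) (by norm_num)⟩
  have step' := fun k => step _ (hτ k)
  simp only [show ∀ k : ℕ, (1 / 2 : ℝ) ^ k / 2 = (1 / 2) ^ (k + 1) from fun k => by ring] at step'
  obtain ⟨T, hT⟩ := rec_bdd (S := fun k => S ((1 / 2) ^ k)) (C := K + 2 + K * Real.log (K + 1) + K * Real.log 2)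
    (by have := Real.log_nonneg (show 1 ≤ K + 1 by linarith); positivity) (by positivity) (fun k => by
      obtain ⟨d, hd, e0⟩ := hS2 _ (hτ k)
      have e1 := b1 _ (hτ k) d hd
      have e2 := mul_nonneg K0 (Real.log_nonneg (show 1 ≤ K + 1 by linarith))
      have e3 := mul_nonneg K0 (Real.log_nonneg one_le_two)
      rw [Real.log_pow, one_div, Real.log_inv, ← one_div] at e1
      linarith only [e0, e1, e3,
        mul_nonneg (Nat.cast_nonneg (α := ℝ) k) (show 0 ≤ K + 2 + K * Real.log (K + 1) by positivity)]) step'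
  refine ⟨T, fun d => le_of_forall_pos_le_add fun ε hε => ?_⟩
  obtain ⟨d', hd', e1, e2, e3⟩ := h4 d (ε / (a + |b| + 1)) (by positivity)
  have e4 : X.NN a b κ 1 (fun _ => 0) d' ≤ T := by
    refine le_of_tendsto' (x := atTop) (f := fun k : ℕ => X.NN a b κ 1 (fun _ => 0) d' - (1 / 2) ^ k * Reg d') ?_
      fun k => (hS1 _ (hτ k) d' hd').trans (hT k)
    simpa using ((tendsto_pow_atTop_nhds_zero_of_lt_one (r := (1 / 2 : ℝ)) (by norm_num)
      (by norm_num)).mul_const (Reg d')).const_sub (X.NN a b κ 1 (fun _ => 0) d')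
  have e5 : d'.avg (fun y => xi κ 1 (Real.log (‖y‖ ^ 2))) = 0 := by
    rw [← d'.avg_const 0]
    exact Real.circleAverage_congr_sphere fun z hz => by
      simp [e3 z (by simpa using hz), xi_zero κ one_pos]
  rw [NN, e5, d'.avg_const] at e4
  have e6 := mul_le_mul_of_nonneg_left (abs_le.1 e1).2 a0
  have e7 : b * (d'.TH - d.TH) ≤ |b| * (ε / (a + |b| + 1)) :=
    (le_abs_self _).trans (by rw [abs_mul]; gcongr)
  have e8 : (a + |b| + 1) * (ε / (a + |b| + 1)) = ε := by field_simp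
  have e9 : 0 < ε / (a + |b| + 1) := by positivity
  have e10 := xi_nonneg hκ.le one_pos d'.s0
  linarith

end Geo

end Crest.Agent.R269
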