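import Crest.Agent.R269.B.Jensen
import Crest.Agent.R269.A.Loc

/-! # Row 269, block R: the norm of a section, Jensen -/

set_option autoImplicit false
set_option linter.unusedSectionVars false
set_option linter.unusedVariables false

noncomputable section

namespace Crest.Agent.R269

open Set Metric Filter Topology MeasureTheory Matrix
open Crest.AlgGeometry.ProjEmb
open scoped InnerProductSpace ContDiff

namespace Geo

variable {N n : ℕ} (X : Geo N n)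

/-- The normalised square norm of a section of `m K + j H`. -/
def nrm (m : ℕ) (j : ℤ) (s : X.Fi → Cn (N + 1) → ℂ) (y : Cn (N + 1)) : ℝ :=
  (∑ f, ‖s f y‖ ^ 2) / ((∑ f, ‖X.dv f y‖ ^ (2 * m)) * (‖y‖ ^ 2) ^ (j - m * (n + 1)))

variable {X} {m : ℕ} {j : ℤ} {s : X.Fi → Cn (N + 1) → ℂ}

theorem nrm_nonneg (y : Cn (N + 1)) : 0 ≤ X.nrm m j s y := by
  unfold nrm; positivity

theorem nrm_key (hs : s ∈ X.Sec m j) {y : Cn (N + 1)} (hy : y ∈ X.Y) : ∃ (q : PE N n) (μ : X.Fi → ℂ), q ≠ 0 ∧ μ ≠ 0 ∧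
    X.pl y = Submodule.span ℂ {q} ∧ (∀ f, X.dv f y = μ f • q) ∧ ∀ f f', μ f' ^ m * s f y = μ f ^ m * s f' y := by
  obtain ⟨U, hU⟩ := X.exists_frame hy
  obtain ⟨μ, h1, h2⟩ := X.exists_mu hy hU
  refine ⟨plU U, μ, X.plU_ne hU, h1, X.pl_eq hy hU, fun f => by ext β; exact h2 f _, fun f f' => ?_⟩
  obtain ⟨β, hβ⟩ : ∃ β, (sel β * U).det ≠ 0 := not_forall.1 fun h => X.plU_ne hU (by ext β; exact h β)
  have h3 := hs.2 y hy f f' β
  rw [h2, h2, mul_pow, mul_pow] at h3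
  rw [mul_right_comm, mul_right_comm (μ f ^ m)] at h3
  exact mul_right_cancel₀ (pow_ne_zero m hβ) h3

theorem nrm_den {y : Cn (N + 1)} (hy : y ∈ X.Y) : 0 < ∑ f, ‖X.dv f y‖ ^ (2 * m) := by
  obtain ⟨f, hf⟩ := X.exists_dv_ne hy
  exact Finset.sum_pos' (fun _ _ => by positivity) ⟨f, Finset.mem_univ _, pow_pos (norm_pos_iff.2 hf) _⟩

/-- `exists_frame`, `exists_mu`: `dv f y = μ f • plU U`, `plU U ≠ 0` (`plU_ne`); the relation in `Sec` at a `β` with `plU U β ≠ 0` gives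
`μ f' ^ m * s f y = μ f ^ m * s f' y`, so `‖s f y‖² ‖dv f' y‖ ^ (2m) = ‖s f' y‖² ‖dv f y‖ ^ (2m)`; sum over `f'`; the denominator is positive
(`exists_dv_ne`). -/
theorem nrm_eq (hs : s ∈ X.Sec m j) {y : Cn (N + 1)} (hy : y ∈ X.Y) (f : X.Fi) :
    ‖s f y‖ ^ 2 = X.nrm m j s y * (‖X.dv f y‖ ^ (2 * m) * (‖y‖ ^ 2) ^ (j - m * (n + 1))) := by
  obtain ⟨q, μ, -, -, -, h1, h2⟩ := nrm_key hs hy
  have h3 : 0 < ‖y‖ ^ 2 := pow_pos (norm_pos_iff.2 hy.1) 2
  rw [nrm, div_mul_eq_mul_div, mul_div_assoc, mul_div_mul_right _ _ (zpow_pos h3 _).ne', ← mul_div_assoc,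
    eq_div_iff (nrm_den hy).ne', Finset.mul_sum, Finset.sum_mul]
  refine Finset.sum_congr rfl fun f' _ => ?_
  have h4 := congrArg (fun z : ℂ => ‖z‖ ^ 2) (h2 f f')
  simp only [norm_mul, norm_pow] at h4
  rw [h1, h1, norm_smul, norm_smul]
  linear_combination ‖q‖ ^ (2 * m) * h4

/-- `dl_smul`, homogeneity in `MH`, `dK = c (e - 1) - (n + 1)`. -/
theorem nrm_smul (hs : s ∈ X.Sec m j) {y : Cn (N + 1)} (hy : y ∈ X.Y) {t : ℂ} (ht : t ≠ 0) :
    X.nrm m j s (t • y) = X.nrm m j s y := by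
  have h1 : ∀ f, X.dv f (t • y) = t ^ (X.c * (X.e - 1)) • X.dv f y := fun f => by
    ext β; exact X.dl_smul f _ y t
  have h2 : 0 < ‖t‖ ^ 2 := pow_pos (norm_pos_iff.2 ht) 2
  have h3 : (‖t‖ ^ (j + m * X.dK)) ^ 2 = (‖t‖ ^ (X.c * (X.e - 1))) ^ (2 * m) * (‖t‖ ^ 2) ^ (j - m * (n + 1)) := by
    have := X.epos
    simp only [← zpow_natCast, ← _root_.zpow_mul]
    rw [← zpow_add₀ (norm_ne_zero_iff.2 ht), dK]
    congr 1
    push_cast [this]
    ring
  simp only [nrm, h1, (hs.1 _).2.1 y hy t ht, norm_smul, norm_mul, norm_zpow, norm_pow, mul_pow, mul_zpow,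
    ← Finset.mul_sum, h3]
  rw [mul_mul_mul_comm, mul_div_mul_left _ _ (by positivity)]

/-- `nrm` is continuous on `Y` (`HolY`, `analyticAt_dv`), `isCompact_Y1`, `nrm_smul`. -/
theorem nrm_bdd (hs : s ∈ X.Sec m j) : ∃ B : ℝ, 1 ≤ B ∧ ∀ y ∈ X.Y, X.nrm m j s y ≤ B := by
  have h1 : ContinuousOn (X.nrm m j s) X.Y := fun y hy => by
    have h2 : ‖y‖ ^ 2 ≠ 0 := pow_ne_zero _ (norm_ne_zero_iff.2 hy.1)
    refine (tendsto_finsetSum _ fun f _ => ?_).div (((tendsto_finsetSum _ fun f _ =>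
      (X.analyticAt_dv f y).continuousAt.norm.pow _).mul ((continuous_norm.continuousAt.pow 2).zpow₀ _
        (.inl h2))).mono_left nhdsWithin_le_nhds) (mul_ne_zero (nrm_den hy).ne' (zpow_ne_zero _ h2))
    obtain ⟨g, g1, g2⟩ := (hs.1 f).1 y hy
    exact (g1.continuousAt.continuousWithinAt.congr_of_eventuallyEq_of_mem g2 hy).norm.pow 2
  obtain ⟨B, hB⟩ := X.isCompact_Y1.bddAbove_image (h1.mono inter_subset_left)
  refine ⟨max 1 B, le_max_left _ _, fun y hy => le_max_of_le_right (hB ⟨((‖y‖⁻¹ : ℝ) : ℂ) • y, ?_, ?_⟩)⟩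
  · exact ⟨X.smul_mem_Y hy (by simpa using hy.1), by simp [norm_smul, hy.1]⟩
  · exact nrm_smul hs hy (by simpa using hy.1)

theorem lnl_val (hs : s ∈ X.Sec m j) {y : Cn (N + 1)} (hy : y ∈ X.Y) {p : PE N n} (hp : p ∈ X.pl y) :
    ∃ v : ℂ, (∀ f β, X.dl f (sel β) y ≠ 0 → v = s f y * (p β / X.dl f (sel β) y) ^ m) ∧
      ‖v‖ ^ 2 = X.nrm m j s y * (‖p‖ ^ (2 * m) * (‖y‖ ^ 2) ^ (j - m * (n + 1))) := by
  obtain ⟨q, μ, -, h0, h1, h2, h3⟩ := nrm_key hs hy
  obtain ⟨f₀, hf⟩ := Function.ne_iff.1 h0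
  rw [h1] at hp
  obtain ⟨a, rfl⟩ := Submodule.mem_span_singleton.1 hp
  have hf' : μ f₀ ≠ 0 := hf
  refine ⟨s f₀ y * (a / μ f₀) ^ m, fun f β h => ?_, ?_⟩
  · have h4 : X.dl f (sel β) y = μ f * q β := congrArg (· β) (h2 f)
    rw [h4] at h ⊢
    have h5 := left_ne_zero_of_mul h
    rw [PiLp.smul_apply, smul_eq_mul, mul_div_mul_right _ _ (right_ne_zero_of_mul h), div_pow, div_pow]
    field_simp
    linear_combination a ^ m * h3 f₀ f
  · have := norm_ne_zero_iff.2 hf'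
    rw [norm_mul, mul_pow, nrm_eq hs hy, h2, norm_smul, norm_smul, norm_pow, norm_div, div_pow]
    field_simp
    ring

/-- Jensen.  For `z` in the closed disc choose `f, β` with `dl f (sel β) (G z) ≠ 0` and put
`S z = s f (G z) * (p z β / dl f (sel β) (G z)) ^ m`.  With `dv f = μ f • plU U`, `p z = λ • plU U` (`pl_eq`) this is `s f * (λ / μ f) ^ m`,
independent of the choice (relation in `Sec`), so near `z₀` (within the closed disc) `S` is given by the formula with the `f, β` of `z₀`: `S` is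
`DiffContOnCl`.  `‖S z‖² = nrm (G z) * ‖p z‖ ^ (2m) * (‖G z‖²) ^ (j - m (n+1))` (`nrm_eq`).  Apply `log_le_avg` with
`w z = √(B * ‖p z‖ ^ (2m) * (‖G z‖²) ^ (j - m (n+1)))`, `B` of `nrm_bdd`, `C = log B`. -/
theorem log_nrm_le (hs : s ∈ X.Sec m j) : ∃ C : ℝ, ∀ d : X.Disc, 0 < X.nrm m j s (d.G 0) →
    Real.log (X.nrm m j s (d.G 0)) - C ≤ m * d.TB + (j - m * (n + 1)) * d.TH := by
  obtain ⟨B, B1, hB⟩ := nrm_bdd hs
  refine ⟨Real.log B, fun d h0 => ?_⟩
  choose! S h1 h2 using fun z (hz : z ∈ closedBall (0 : ℂ) 1) => lnl_val hs (d.memY z hz) (d.memP z hz)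
  have cG := d.hG.continuousOn_ball
  have cp := d.hp.continuousOn_ball
  have key : ∀ z₀ ∈ closedBall (0 : ℂ) 1, ∃ (g δ : Cn (N + 1) → ℂ) (β : _), AnalyticAt ℂ g (d.G z₀) ∧
      AnalyticAt ℂ δ (d.G z₀) ∧ δ (d.G z₀) ≠ 0 ∧
      S =ᶠ[𝓝[closedBall 0 1] z₀] fun z => g (d.G z) * (d.p z β / δ (d.G z)) ^ m := fun z₀ hz => by
    obtain ⟨f, hf⟩ := X.exists_dv_ne (d.memY z₀ hz)
    obtain ⟨β, hβ⟩ : ∃ β, X.dl f (sel β) (d.G z₀) ≠ 0 := not_forall.1 fun h => hf (by ext β; exact h β)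
    obtain ⟨g, g1, g2⟩ := (hs.1 f).1 _ (d.memY z₀ hz)
    refine ⟨g, _, β, g1, X.analyticAt_dl f _ _, hβ, ?_⟩
    filter_upwards [self_mem_nhdsWithin, ((cG z₀ hz).tendsto_nhdsWithin d.memY).eventually g2,
      ((X.analyticAt_dl f (sel β) _).continuousAt.tendsto.comp (cG z₀ hz)).eventually_ne hβ] with z e1 e2 e3
    rw [h1 z e1 f β e3, e2]
  have hS : DiffContOnCl ℂ S (ball 0 1) := by
    refine ⟨fun z hz => ?_, closure_ball (0 : ℂ) one_ne_zero ▸ fun z hz => ?_⟩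
    · obtain ⟨g, δ, β, g1, g2, g3, g4⟩ := key z (ball_subset_closedBall hz)
      have e1 := d.hG.differentiableOn z hz
      exact ((g1.differentiableAt.comp_differentiableWithinAt z e1).mul
        ((((EuclideanSpace.proj β).differentiableAt.comp_differentiableWithinAt z
          (d.hp.differentiableOn z hz)).div (g2.differentiableAt.comp_differentiableWithinAt z e1)
          g3).pow m)).congr_of_eventuallyEq_of_mem
        (g4.filter_mono (nhdsWithin_mono _ ball_subset_closedBall)) hz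
    · obtain ⟨g, δ, β, g1, g2, g3, g4⟩ := key z hz
      exact ((g1.continuousAt.comp_continuousWithinAt (cG z hz)).mul
        ((((EuclideanSpace.proj β : PE N n →L[ℂ] ℂ).continuous.continuousAt.comp_continuousWithinAt
          (cp z hz)).div (g2.continuousAt.comp_continuousWithinAt (cG z hz))
          g3).pow m)).congr_of_eventuallyEq_of_mem g4 hz
  have pG : ∀ z ∈ closedBall (0 : ℂ) 1, 0 < ‖d.G z‖ ^ 2 := fun z hz => pow_pos (norm_pos_iff.2 (d.memY z hz).1) 2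
  have pp : ∀ z ∈ closedBall (0 : ℂ) 1, 0 < ‖d.p z‖ ^ 2 := fun z hz => pow_pos (norm_pos_iff.2 (d.neP z hz)) 2
  have lg : ∀ z ∈ closedBall (0 : ℂ) 1, ‖d.p z‖ ^ (2 * m) * (‖d.G z‖ ^ 2) ^ (j - m * (n + 1)) = Real.exp
      ((m : ℝ) • Real.log (‖d.p z‖ ^ 2) + ((j : ℝ) - m * (n + 1)) • Real.log (‖d.G z‖ ^ 2)) := fun z hz => by
    rw [Real.exp_add, smul_eq_mul, smul_eq_mul, ← Real.log_pow, Real.exp_log (pow_pos (pp z hz) _), pow_mul,
      show (j : ℝ) - m * (n + 1) = ((j - m * (n + 1) : ℤ) : ℝ) by push_cast; rfl, ← Real.log_zpow,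
      Real.exp_log (zpow_pos (pG z hz) _)]
  have z0 : (0 : ℂ) ∈ closedBall (0 : ℂ) 1 := mem_closedBall_self zero_le_one
  have c1 : ContinuousOn (fun z => Real.log (‖d.p z‖ ^ 2)) (sphere 0 1) :=
    ((cp.norm.pow 2).log fun z hz => (pp z hz).ne').mono sphere_subset_closedBall
  have c2 : ContinuousOn (fun z => Real.log (‖d.G z‖ ^ 2)) (sphere 0 1) :=
    ((cG.norm.pow 2).log fun z hz => (pG z hz).ne').mono sphere_subset_closedBall
  have c4 : ContinuousOn (fun z => (m : ℝ) • Real.log (‖d.p z‖ ^ 2)) (sphere 0 1) := c1.const_smul (m : ℝ)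
  have c5 : ContinuousOn (fun z => ((j : ℝ) - m * (n + 1)) • Real.log (‖d.G z‖ ^ 2)) (sphere 0 1) :=
    c2.const_smul ((j : ℝ) - m * (n + 1))
  have c3 := c4.fun_add c5
  have e0 := h2 0 z0
  rw [lg 0 z0] at e0
  have e1 := log_le_avg (S := S ^ 2) ⟨hS.1.pow 2, hS.2.pow 2⟩ (norm_pos_iff.1 (by
      rw [Pi.pow_apply, norm_pow, e0]; exact mul_pos h0 (Real.exp_pos _)))
    (w := fun z => Real.exp (Real.log B + ((m : ℝ) • Real.log (‖d.p z‖ ^ 2) +
      ((j : ℝ) - m * (n + 1)) • Real.log (‖d.G z‖ ^ 2)))) (continuousOn_const.add c3).rexp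
    (fun _ _ => Real.exp_pos _) fun z hz => by
      have hz' := sphere_subset_closedBall hz
      rw [Pi.pow_apply, norm_pow, h2 z hz', lg z hz', Real.exp_add (Real.log B), Real.exp_log (by linarith)]
      exact mul_le_mul_of_nonneg_right (hB _ (d.memY z hz')) (Real.exp_pos _).le
  simp only [Real.log_exp] at e1
  rw [Pi.pow_apply, norm_pow, e0, Real.log_mul h0.ne' (Real.exp_pos _).ne', Real.log_exp,
    Real.circleAverage_fun_add (circleIntegrable_const _ _ _) (c3.circleIntegrable zero_le_one),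
    Real.circleAverage_fun_add (c4.circleIntegrable zero_le_one) (c5.circleIntegrable zero_le_one),
    Real.circleAverage_const, Real.circleAverage_fun_smul,
    Real.circleAverage_fun_smul] at e1
  simp only [smul_eq_mul] at e1
  simp only [Disc.TB, Disc.TH, Disc.avg, Disc.s0]
  linarith

end Geo

end Crest.Agent.R269
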